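import Vale.Agent.P165.MathlibUsed

open MeasureTheory ProbabilityTheory

namespace Vale.Agent.P165

universe u

variable {V : Type u}

/-- The number of infinite open clusters when `ω` is the set of open edges. -/
noncomputable def numInfiniteClusters (ω : Set (Sym2 V)) : ℕ∞ :=
  Set.encard {C : (SimpleGraph.fromEdgeSet ω).ConnectedComponent | C.supp.Infinite}

/-- The critical probability for the existence of an infinite cluster in Bernoulli bond
percolation on `G`; `setBernoulli G.edgeSet p` is the law of the random set of open edges. -/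
noncomputable def pc (G : SimpleGraph V) : ℝ :=
  sInf {p : ℝ | ∃ h : p ∈ Set.Icc (0 : ℝ) 1,
    0 < setBernoulli G.edgeSet (⟨p, h⟩ : unitInterval) {ω | 1 ≤ numInfiniteClusters ω}}

/-- The uniqueness threshold of Bernoulli bond percolation on `G`. -/
noncomputable def pu (G : SimpleGraph V) : ℝ :=
  sInf {p : ℝ | ∃ h : p ∈ Set.Icc (0 : ℝ) 1,
    setBernoulli G.edgeSet (⟨p, h⟩ : unitInterval) {ω | numInfiniteClusters ω = 1} = 1}

/-- `G` is quasi-transitive: its automorphism group has finitely many orbits on vertices. -/
def IsQuasiTransitive (G : SimpleGraph V) : Prop :=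
  ∃ S : Finset V, ∀ x : V, ∃ y ∈ S, ∃ φ : G ≃g G, φ y = x

end Vale.Agent.P165
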