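import Vale.Agent.P165.Defs

namespace Vale.Agent.P165

universe u

variable {V : Type u}

/-- The edge boundary of a finite vertex set. -/
def edgeBoundary (G : SimpleGraph V) (A : Finset V) : Set (Sym2 V) :=
  {e | ∃ x ∈ A, ∃ y ∉ A, G.Adj x y ∧ e = s(x, y)}

/-- The edge-isoperimetric (Cheeger) constant `h_E(G) = inf |∂_E A| / |A|`. -/
noncomputable def edgeCheeger (G : SimpleGraph V) : ℝ :=
  ⨅ A : {A : Finset V // A.Nonempty}, ((edgeBoundary G A.1).ncard : ℝ) / (A.1.card : ℝ)

end Vale.Agent.P165
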