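import Mathlib.Algebra.Order.Chebyshev
import Mathlib.Analysis.Calculus.Deriv.MeanValue
import Mathlib.Analysis.SpecialFunctions.ExpDeriv
import Mathlib.Combinatorics.SimpleGraph.Metric
import Mathlib.Combinatorics.SimpleGraph.Walk.Counting
import Mathlib.Data.Finset.DenselyOrdered
import Mathlib.Data.Int.Star
import Mathlib.Order.CompletePartialOrder
import Mathlib.Probability.Distributions.SetBernoulli
import Mathlib.Tactic

/-! The part of Mathlib that the development of this folder uses. -/
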