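import Vale.Agent.P165.Defs

namespace Vale.Agent.P165

universe u

variable {V : Type u}

/-- The `k`-th power of `G`: distinct vertices are adjacent when joined by a walk in `G` of
length at most `k`, that is, when their distance in `G` is at most `k`. -/
def powerGraph (G : SimpleGraph V) (k : ℕ) : SimpleGraph V where
  Adj x y := x ≠ y ∧ ∃ w : G.Walk x y, w.length ≤ k
  symm := ⟨fun _ _ h => ⟨h.1.symm, h.2.choose.reverse, by
    rw [SimpleGraph.Walk.length_reverse]; exact h.2.choose_spec⟩⟩
  loopless := ⟨fun _ h => h.1 rfl⟩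

/-- The (outer) vertex boundary of a finite vertex set. -/
def vertexBoundary (G : SimpleGraph V) (A : Finset V) : Set V :=
  {y | y ∉ A ∧ ∃ x ∈ A, G.Adj x y}

/-- The vertex-isoperimetric constant `h_V(G) = inf |∂_V A| / |A|`. -/
noncomputable def vertexCheeger (G : SimpleGraph V) : ℝ :=
  ⨅ A : {A : Finset V // A.Nonempty}, ((vertexBoundary G A.1).ncard : ℝ) / (A.1.card : ℝ)

end Vale.Agent.P165
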