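import Vale.Agent.P165.EdgeDefs

namespace Vale.Agent.P165

universe u

variable {V : Type u}

/-- The number of closed walks of length `n` based at `o`. -/
noncomputable def closedWalks (G : SimpleGraph V) (o : V) (n : ℕ) : ℕ :=
  Nat.card {w : G.Walk o o // w.length = n}

/-- The spectral radius `limsup_n p_n(o,o)^{1/n}` of simple random walk on a `d`-regular graph,
where `p_n(o,o)` is the number of closed walks of length `n` at `o` divided by `d^n`. -/
noncomputable def spectralRadius (G : SimpleGraph V) (d : ℕ) (o : V) : ℝ :=
  Filter.limsup (fun n : ℕ => ((closedWalks G o n : ℝ) / (d : ℝ) ^ n) ^ (1 / (n : ℝ)))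
    Filter.atTop

end Vale.Agent.P165
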